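import Mathlib

/-!
P196: a finitely presented group without nontrivial finite quotients has no nontrivial action
on `ℤ` by permutations of bounded displacement.
-/

namespace Vale.Agent.P196

open Equiv

variable {G : Type} [Group G]

/-- A map commuting with translation by `p` commutes with translation by its multiples. -/
theorem add_zsmul_comm {p : ℤ} (e : ℤ → ℤ) (he : ∀ x, e (x + p) = e x + p) (x k : ℤ) :
    e (x + k * p) = e x + k * p := by
  induction k using Int.induction_on with
  | zero => simp
  | succ i ih => rw [show x + ((i : ℤ) + 1) * p = x + i * p + p by ring, he, ih]; ring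
  | pred i ih =>
    have := he (x + (-(i : ℤ) - 1) * p)
    rw [show x + (-(i : ℤ) - 1) * p + p = x + -(i : ℤ) * p by ring, ih] at this
    linarith

/-- A periodic bounded action of a group without finite quotients is trivial. -/
theorem periodic_trivial (hq : ∀ (F : Type) [Group F] [Finite F] (f : G →* F), f = 1)
    (η : G →* Perm ℤ) (p : ℕ) (hp : 0 < p) (hper : ∀ g x, η g (x + p) = η g x + p) : η = 1 := by
  have : NeZero p := ⟨hp.ne'⟩
  have hk : ∀ g x k, η g (x + k * (p : ℤ)) = η g x + k * (p : ℤ) := fun g =>
    add_zsmul_comm _ (hper g)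
  let f : G → ZMod p → ZMod p := fun g z => (η g (z.val : ℤ) : ℤ)
  have hf : ∀ g (x : ℤ), f g (x : ZMod p) = ((η g x : ℤ) : ZMod p) := by
    intro g x
    have h1 : (((x : ZMod p).val : ℤ) : ZMod p) = ((x : ℤ) : ZMod p) := by simp
    obtain ⟨k, hkx⟩ := (ZMod.intCast_eq_intCast_iff_dvd_sub _ _ p).1 h1
    simp only [f]
    have hx : x = ((x : ZMod p).val : ℤ) + k * (p : ℤ) := by linarith
    conv_rhs => rw [hx, hk, Int.cast_add, Int.cast_mul]
    simp
  have hmul : ∀ g h z, f (g * h) z = f g (f h z) := by
    intro g h z
    show ((η (g * h) (z.val : ℤ) : ℤ) : ZMod p) = f g ((η h (z.val : ℤ) : ℤ) : ZMod p)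
    rw [hf g, map_mul]
    rfl
  have hone : ∀ z, f 1 z = z := fun z => by simp [f]
  let F : G →* Perm (ZMod p) :=
    { toFun := fun g => ⟨f g, f g⁻¹,
        fun z => by rw [← hmul, inv_mul_cancel, hone],
        fun z => by rw [← hmul, mul_inv_cancel, hone]⟩
      map_one' := Equiv.ext hone
      map_mul' := fun g h => Equiv.ext (hmul g h) }
  have hmod : ∀ g x, ∃ k : ℤ, η g x = x + k * (p : ℤ) := by
    intro g x
    have h1 : f g (x : ZMod p) = (x : ZMod p) := by
      have := DFunLike.congr_fun (hq _ F) g
      exact congrFun (congrArg DFunLike.coe this) (x : ZMod p)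
    rw [hf g] at h1
    obtain ⟨k, hkx⟩ := (ZMod.intCast_eq_intCast_iff_dvd_sub _ _ p).1 h1.symm
    exact ⟨k, by linarith⟩
  refine MonoidHom.ext fun g => Equiv.ext fun x => ?_
  let χ : G →* Multiplicative ℤ :=
    { toFun := fun g => Multiplicative.ofAdd (η g x - x)
      map_one' := by simp
      map_mul' := fun a b => by
        obtain ⟨k, hkb⟩ := hmod b x
        rw [← ofAdd_add, map_mul, Perm.mul_apply, hkb, hk a x k]
        ring_nf }
  by_contra hne
  set v := η g x - x
  have h1 : ((v : ℤ) : ZMod (v.natAbs + 1)) = 0 := by
    have := DFunLike.congr_fun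
      (hq _ ((AddMonoidHom.toMultiplicative (Int.castAddHom (ZMod (v.natAbs + 1)))).comp χ)) g
    exact Multiplicative.ofAdd.injective this
  rw [ZMod.intCast_zmod_eq_zero_iff_dvd] at h1
  have h2 := Int.natAbs_dvd_natAbs.2 h1
  rw [Int.natAbs_natCast] at h2
  rcases Nat.eq_zero_or_pos v.natAbs with h0 | h0
  · exact hne (by simp only [v, Int.natAbs_eq_zero, sub_eq_zero] at h0; simpa using h0)
  · exact absurd (Nat.le_of_dvd h0 h2) (by omega)

/-- Bounded displacement actions on `ℤ` of finitely presented groups without finite quotients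
are trivial. -/
theorem bounded_trivial (hfp : Group.IsFinitelyPresented G)
    (hq : ∀ (F : Type) [Group F] [Finite F] (f : G →* F), f = 1)
    (ρ : G →* Perm ℤ) (hb : ∀ g, ∃ C : ℕ, ∀ x, |ρ g x - x| ≤ C) : ρ = 1 := by
  classical
  obtain ⟨n, φ, hφ, R, hR, hRφ⟩ := hfp.out
  let θ : FreeGroup (Fin n) →* Perm ℤ := ρ.comp φ
  choose C hC using hb
  let D : ℕ := Finset.univ.sup fun i : Fin n => C (φ (FreeGroup.of i))
  let c : Fin n → ℤ → ℤ := fun i x => θ (FreeGroup.of i) x - x
  have hD : ∀ i x, |c i x| ≤ D := fun i x => (hC _ x).trans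
    (Int.ofNat_le.2 (Finset.le_sup (f := fun i : Fin n => C (φ (FreeGroup.of i)))
      (Finset.mem_univ i)))
  have hDinv : ∀ i x, |(θ (FreeGroup.of i))⁻¹ x - x| ≤ D := fun i x => by
    have := hD i ((θ (FreeGroup.of i))⁻¹ x)
    simp only [c, Perm.inv_def, Equiv.apply_symm_apply] at this
    rwa [abs_sub_comm]
  let L : ℕ := hR.toFinset.sup fun r => r.toWord.length
  let M : ℕ := D * (L + 1) + 2 * D
  have key : ∀ a b : ℤ, a < b → (∀ i (j : ℤ), |j| ≤ M → c i (a + j) = c i (b + j)) →
      ∀ i, c i a = 0 := by
    intro a b hab hw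
    obtain ⟨p, hpb⟩ : ∃ p : ℕ, b = a + p := ⟨(b - a).toNat, by omega⟩
    have hp : 0 < p := by omega
    have hp0 : (p : ℤ) ≠ 0 := by omega
    have hwin : ∀ (k : ℕ) (i : Fin n) (y : ℤ), (y - a).natAbs ≤ k → a - M ≤ y → y ≤ b + M →
        c i y = c i (a + (y - a) % (p : ℤ)) := by
      intro k
      induction k using Nat.strong_induction_on with
      | _ k ih =>
        intro i y hk h1 h2
        by_cases hlo : a ≤ y
        · by_cases hhi : y < b
          · rw [Int.emod_eq_of_lt (by omega) (by omega)]; ring_nf
          · have e := hw i (y - b) (by rw [abs_le]; constructor <;> omega)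
            rw [show b + (y - b) = y by ring] at e
            rw [← e, ih (y - b).natAbs (by omega) i _ (by omega) (by omega) (by omega)]
            congr 2
            rw [show y - a = a + (y - b) - a + (p : ℤ) by omega, Int.add_emod_right]
        · have e := hw i (y - a) (by rw [abs_le]; constructor <;> omega)
          rw [show a + (y - a) = y by ring] at e
          rw [e]
          have hm : (y - a) % (p : ℤ) = (b + (y - a) - a) % (p : ℤ) := by
            rw [show b + (y - a) - a = y - a + (p : ℤ) by omega, Int.add_emod_right]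
          rw [hm]
          by_cases hin : a ≤ b + (y - a)
          · rw [Int.emod_eq_of_lt (a := b + (y - a) - a) (by omega) (by omega)]; ring_nf
          · exact ih _ (by omega) i _ le_rfl (by omega) (by omega)
    let red : ℤ → ℤ := fun x => a + (x - a) % (p : ℤ)
    have hred : ∀ x, a ≤ red x ∧ red x < b := fun x => by
      have := Int.emod_nonneg (x - a) hp0
      have := Int.emod_lt_of_pos (x - a) (show (0 : ℤ) < p by omega)
      simp only [red]; omega
    let per : Fin n → ℤ → ℤ := fun i x => c i (red x)
    have hloc : ∀ i x j, |j| ≤ (M : ℤ) → per i (x + j) = c i (red x + j) := by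
      intro i x j hj
      rw [abs_le] at hj
      have := hred x
      rw [hwin _ i (red x + j) le_rfl (by omega) (by omega)]
      simp only [per, red]
      congr 2
      rw [show a + (x - a) % (p : ℤ) + j - a = (x - a) % (p : ℤ) + j by ring,
        Int.emod_add_emod]
      ring_nf
    have hDM : (2 : ℤ) * D ≤ M := by simp only [M]; push_cast; nlinarith
    have hbij : ∀ i, Function.Bijective fun x => x + per i x := by
      intro i
      constructor
      · intro x z hxz
        simp only at hxz
        have hz := hloc i x (z - x) (by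
          have h1 := hD i (red x)
          have h2 := hD i (red z)
          simp only [per] at hxz
          rw [abs_le] at h1 h2 ⊢
          constructor <;> omega)
        rw [add_sub_cancel] at hz
        have : θ (FreeGroup.of i) (red x) = θ (FreeGroup.of i) (red x + (z - x)) := by
          simp only [per, c] at hz hxz ⊢
          omega
        have := (θ (FreeGroup.of i)).injective this
        omega
      · intro x
        refine ⟨x + ((θ (FreeGroup.of i))⁻¹ (red x) - red x), ?_⟩
        simp only
        rw [hloc i x _ ((hDinv i _).trans (by omega))]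
        simp only [c, add_sub_cancel, Perm.inv_def, Equiv.apply_symm_apply]
        ring
    let σ : Fin n → Perm ℤ := fun i => Equiv.ofBijective _ (hbij i)
    have hσ : ∀ i x, σ i x = x + per i x := fun i x => rfl
    have hsim : ∀ l : List (Fin n × Bool), l.length ≤ L → ∀ x : ℤ,
        FreeGroup.lift σ (FreeGroup.mk l) x - x = θ (FreeGroup.mk l) (red x) - red x ∧
        |θ (FreeGroup.mk l) (red x) - red x| ≤ (D * l.length : ℕ) := by
      intro l
      induction l with
      | nil => intro _ x; simp [← FreeGroup.one_eq_mk]
      | cons s l ih =>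
        intro hl x
        simp only [List.length_cons] at hl
        obtain ⟨h1, h2⟩ := ih (by omega) x
        have hle : ((D * l.length : ℕ) : ℤ) + 2 * D ≤ M := by
          have : D * l.length ≤ D * (L + 1) := Nat.mul_le_mul_left _ (by omega)
          simp only [M]; omega
        have hmk : FreeGroup.mk (s :: l) = FreeGroup.mk [s] * FreeGroup.mk l := by
          rw [FreeGroup.mul_mk]; rfl
        have hlen : ((D * (s :: l).length : ℕ) : ℤ) = (D * l.length : ℕ) + D := by
          simp only [List.length_cons]; push_cast; ring
        simp only [hmk, map_mul, Perm.mul_apply, hlen]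
        set u := θ (FreeGroup.mk l) (red x)
        have hx : FreeGroup.lift σ (FreeGroup.mk l) x = x + (u - red x) := by linarith
        rw [hx]
        obtain ⟨i, _ | _⟩ := s
        · have hinv : FreeGroup.mk [(i, false)] = (FreeGroup.of i)⁻¹ := rfl
          rw [hinv, map_inv, map_inv, FreeGroup.lift_apply_of]
          have hd := hDinv i u
          set w := (θ (FreeGroup.of i))⁻¹ u with hw'
          have hσw : (σ i)⁻¹ (x + (u - red x)) = x + (w - red x) := by
            rw [Perm.inv_eq_iff_eq, hσ, hloc i x (w - red x) (by
              rw [abs_le] at h2 hd ⊢; constructor <;> omega)]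
            simp only [c, add_sub_cancel, hw', Perm.inv_def, Equiv.apply_symm_apply]
            ring
          rw [hσw]
          refine ⟨by ring, ?_⟩
          rw [abs_le] at h2 hd ⊢
          constructor <;> omega
        · have hof : FreeGroup.mk [(i, true)] = FreeGroup.of i := rfl
          rw [hof, FreeGroup.lift_apply_of, hσ,
            hloc i x (u - red x) (h2.trans (by omega)), add_sub_cancel]
          have hd := hD i u
          refine ⟨by simp only [c]; ring, ?_⟩
          simp only [c] at hd
          rw [abs_le] at h2 hd ⊢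
          constructor <;> omega
    have hker : φ.ker ≤ (FreeGroup.lift σ).ker := by
      rw [← hRφ]
      refine Subgroup.normalClosure_le_normal fun r hr => ?_
      have hlen : r.toWord.length ≤ L :=
        Finset.le_sup (f := fun r : FreeGroup (Fin n) => r.toWord.length) (hR.mem_toFinset.2 hr)
      have hθ : θ r = 1 := by
        have : r ∈ φ.ker := hRφ ▸ Subgroup.subset_normalClosure hr
        show ρ (φ r) = 1
        rw [MonoidHom.mem_ker.1 this, map_one]
      refine MonoidHom.mem_ker.2 (Equiv.ext fun x => ?_)
      have := (hsim r.toWord hlen x).1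
      rw [FreeGroup.mk_toWord, hθ] at this
      simp only [Perm.one_apply] at this ⊢
      linarith
    let η : G →* Perm ℤ := φ.liftOfSurjective hφ ⟨FreeGroup.lift σ, hker⟩
    have hη : ∀ w, η (φ w) = FreeGroup.lift σ w :=
      fun w => MonoidHom.liftOfRightInverse_comp_apply _ _ _ _ w
    have hper : ∀ g x, η g (x + p) = η g x + p := by
      intro g
      obtain ⟨w, rfl⟩ := hφ g
      rw [hη]
      induction w using FreeGroup.induction_on with
      | C1 => simp
      | of i =>
        intro x
        simp only [FreeGroup.lift_apply_of, hσ, per, red]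
        rw [show x + (p : ℤ) - a = x - a + (p : ℤ) by ring, Int.add_emod_right]
        ring
      | inv_of i h =>
        intro x
        rw [map_inv, Perm.inv_eq_iff_eq]
        simp only [FreeGroup.lift_apply_of] at h ⊢
        rw [h, Perm.inv_def, Equiv.apply_symm_apply]
      | mul u v hu hv =>
        intro x
        simp only [map_mul, Perm.mul_apply, hv, hu]
    intro i
    have := congrArg (fun e : Perm ℤ => e a)
      (DFunLike.congr_fun (periodic_trivial hq η p hp hper) (φ (FreeGroup.of i)))
    simp only [hη, FreeGroup.lift_apply_of, hσ, MonoidHom.one_apply, Perm.one_apply, per, red,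
      sub_self, Int.zero_emod, add_zero] at this
    linarith
  let N : Set ℤ := {x | ∃ i, c i x ≠ 0}
  have hN : Finite N := by
    have hmem : ∀ i x, c i x ∈ Finset.Icc (-(D : ℤ)) D := fun i x =>
      Finset.mem_Icc.2 (abs_le.1 (hD i x))
    refine Finite.of_injective (fun x : N => fun (i : Fin n) (j : Finset.Icc (-(M : ℤ)) M) =>
      (⟨c i (x.1 + j.1), hmem _ _⟩ : Finset.Icc (-(D : ℤ)) D)) ?_
    intro x z hxz
    have hw : ∀ i (j : ℤ), |j| ≤ M → c i (x.1 + j) = c i (z.1 + j) := fun i j hj =>
      congrArg Subtype.val (congrFun (congrFun hxz i) ⟨j, Finset.mem_Icc.2 (abs_le.1 hj)⟩)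
    rcases lt_trichotomy x.1 z.1 with h | h | h
    · obtain ⟨i, hi⟩ := x.2
      exact absurd (key _ _ h hw i) hi
    · exact Subtype.ext h
    · obtain ⟨i, hi⟩ := z.2
      exact absurd (key _ _ h (fun i j hj => (hw i j hj).symm) i) hi
  have hfix : ∀ g x, x ∉ N → ρ g x = x := by
    intro g
    obtain ⟨w, rfl⟩ := hφ g
    induction w using FreeGroup.induction_on with
    | C1 => simp
    | of i =>
      intro x hx
      have : c i x = 0 := not_not.1 fun h => hx ⟨i, h⟩
      exact sub_eq_zero.1 this
    | inv_of i h =>
      intro x hx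
      rw [map_inv, map_inv, Perm.inv_eq_iff_eq, h x hx]
    | mul u v hu hv =>
      intro x hx
      rw [map_mul, map_mul, Perm.mul_apply, hv x hx, hu x hx]
  have hinv : ∀ g x, ρ g x ∈ N ↔ x ∈ N := by
    intro g x
    by_cases hx : x ∈ N
    · refine iff_of_true (not_not.1 fun h => h ?_) hx
      rw [(ρ g).injective (hfix g _ h)]
      exact hx
    · rw [hfix g x hx]
  let P : G →* Perm N :=
    { toFun := fun g => (ρ g).subtypePerm (hinv g)
      map_one' := by ext x; simp
      map_mul' := fun g h => by
        ext x
        show ρ (g * h) x.1 = ρ g (ρ h x.1)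
        rw [map_mul]; rfl }
  refine MonoidHom.ext fun g => Equiv.ext fun x => ?_
  by_cases hx : x ∈ N
  · have := congrArg (fun e : Perm N => (e ⟨x, hx⟩).1) (DFunLike.congr_fun (hq _ P) g)
    simpa [P] using this
  · simpa using hfix g x hx

end Vale.Agent.P196
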